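import Crest.Agent.R056.Main

/-!
Choice of parameters: `Var * (log n)^(r/(r-1)) ≤ 1024 r * I`.
-/

set_option autoImplicit false

namespace Crest.Agent.R056

open Finset Crest.Agent.Lib.BiasedCube

variable {ι : Type*} [Fintype ι] [DecidableEq ι]

theorem var_mul_log_le {n r : ℕ} (hn : 2 ≤ n) (hr2 : 2 ≤ r) {p : ℝ} (h0 : 0 < p) (h1 : p < 1)
    {s : ι → Finset (Fin n)} (hs : Function.Injective s) (hr : ∀ e, (s e).card = r)
    {f : (ι → Bool) → Bool} (hf : SwapSymm s f) :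
    Ex p (ind f) * (1 - Ex p (ind f)) * Real.log n ^ ((r : ℝ) / ((r : ℝ) - 1))
      ≤ 1024 * r * ∑ e, Inf p f e := by
  set L := Real.log n with hL
  set γ : ℝ := (r : ℝ) / ((r : ℝ) - 1) with hγ
  set I := ∑ e, Inf p f e with hI
  set a := p * (1 - p) with ha
  have hI0 : 0 ≤ I := Finset.sum_nonneg fun e _ => Inf_nonneg h0.le h1.le f e
  have hr2' : (2 : ℝ) ≤ r := by exact_mod_cast hr2
  have hn' : (2 : ℝ) ≤ n := by exact_mod_cast hn
  have hL0 : 0 < L := Real.log_pos (by linarith)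
  have hγ0 : 0 ≤ γ := div_nonneg (by linarith) (by linarith)
  have hγ2 : γ ≤ 2 := by rw [hγ, div_le_iff₀ (by linarith)]; linarith
  have ha0 : 0 < a := mul_pos h0 (by linarith)
  have ha4 : a ≤ 1 / 4 := a_le_quarter p
  have hLγ0 : 0 ≤ L ^ γ := Real.rpow_nonneg hL0.le γ
  by_cases hsmall : L ≤ 12
  · have hp := poincare h0 h1 f
    have e1 : L ^ γ ≤ 144 := by
      calc L ^ γ ≤ (12 : ℝ) ^ γ := Real.rpow_le_rpow hL0.le hsmall hγ0
        _ ≤ (12 : ℝ) ^ (2 : ℝ) := Real.rpow_le_rpow_of_exponent_le (by norm_num) hγ2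
        _ = 144 := by norm_num
    calc Ex p (ind f) * (1 - Ex p (ind f)) * L ^ γ ≤ (a * I) * L ^ γ :=
          mul_le_mul_of_nonneg_right hp hLγ0
      _ ≤ (1 / 4 * I) * 144 :=
          mul_le_mul (mul_le_mul_of_nonneg_right ha4 hI0) e1 hLγ0 (by positivity)
      _ ≤ 1024 * r * I := by nlinarith
  push Not at hsmall
  have hρ8 := eight_le_rho h0 h1
  set ρ := rho p with hρ
  set ℓ := Real.log ρ with hℓ
  have hℓ1 : 1 ≤ ℓ := by
    rw [hℓ, Real.le_log_iff_exp_le (by linarith)]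
    have := Real.exp_one_lt_d9
    linarith
  have hρexp : ρ = Real.exp ℓ := (Real.exp_log (by linarith)).symm
  have hnexp : (n : ℝ) = Real.exp L := (Real.exp_log (by linarith)).symm
  have haρ : a * ρ = 2 := by
    rw [hρ, rho, ← ha]; field_simp
  have hℓ2 : a * ℓ ^ 2 ≤ 4 := by
    have := Real.pow_div_factorial_le_exp ℓ (by linarith) 2
    rw [← hρexp] at this
    norm_num [Nat.factorial] at this
    nlinarith
  set k := ⌊L / (8 * ℓ)⌋₊ with hk
  have hk1 : (k : ℝ) ≤ L / (8 * ℓ) := Nat.floor_le (by positivity)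
  have hk2 : L / (8 * ℓ) < k + 1 := Nat.lt_floor_add_one _
  have hk3 : (k : ℝ) * (8 * ℓ) ≤ L := by rwa [le_div_iff₀ (by positivity)] at hk1
  have hk4 : (k : ℝ) + 1 ≤ L := by
    have : (0 : ℝ) ≤ k := by positivity
    nlinarith
  set y := Real.exp (L / 4) with hy
  have hy0 : 0 < y := Real.exp_pos _
  have hy4 : y ^ 4 = n := by
    rw [hy, ← Real.exp_nat_mul, hnexp]; congr 1; push_cast; ring
  have hy3 : L ^ 3 ≤ 384 * y := by
    have := Real.pow_div_factorial_le_exp (L / 4) (by positivity) 3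
    rw [← hy] at this
    norm_num [Nat.factorial] at this
    nlinarith
  have hρk : ρ ^ (2 * k) ≤ y := by
    rw [hρexp, ← Real.exp_nat_mul, hy]
    refine Real.exp_le_exp.2 ?_
    push_cast
    nlinarith
  have hnL : 2 * L ^ 2 ≤ n := by
    have := Real.pow_div_factorial_le_exp L hL0.le 3
    rw [← hnexp] at this
    norm_num [Nat.factorial] at this
    nlinarith [sq_nonneg L]
  set v := (k + 1) ^ 2 with hv
  have hv0 : 0 < v := by positivity
  have hvL : (v : ℝ) ≤ L ^ 2 := by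
    rw [hv]; push_cast
    exact pow_le_pow_left₀ (by positivity) hk4 2
  have hqn : 2 * v ≤ n := by
    have : ((2 * v : ℕ) : ℝ) ≤ n := by push_cast; linarith
    exact_mod_cast this
  set m := n / (2 * v) with hm
  have hm1 : 2 * v * m ≤ n := Nat.mul_div_le n (2 * v)
  have hm2 : 1 ≤ m := (Nat.one_le_div_iff (by omega)).2 hqn
  have hm3 : n < 2 * v * (m + 1) := Nat.lt_mul_div_succ n (by omega)
  have hm4 : (n : ℝ) ≤ 4 * L ^ 2 * m := by
    have a1 : n ≤ 4 * v * m := by nlinarith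
    have a2 : (n : ℝ) ≤ 4 * v * m := by exact_mod_cast a1
    have a3 : (0 : ℝ) ≤ m := by positivity
    nlinarith
  set lam := 384 / L ^ 2 with hlam
  have hlam0 : 0 < lam := by positivity
  have hcond : 2 * ρ ^ (2 * k) ≤ m * lam ^ 3 := by
    have b1 : L ^ 9 ≤ 384 ^ 3 * y ^ 3 := by
      have := pow_le_pow_left₀ (by positivity) hy3 3
      calc L ^ 9 = (L ^ 3) ^ 3 := by ring
        _ ≤ (384 * y) ^ 3 := this
        _ = _ := by ring
    have b2 : 8 * L ^ 8 ≤ L ^ 9 := by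
      have : 0 ≤ L ^ 8 := by positivity
      nlinarith
    have b3 : 8 * L ^ 8 * y ≤ 384 ^ 3 * (4 * L ^ 2 * m) := by
      calc 8 * L ^ 8 * y ≤ 384 ^ 3 * y ^ 3 * y :=
            mul_le_mul_of_nonneg_right (b2.trans b1) hy0.le
        _ = 384 ^ 3 * n := by rw [← hy4]; ring
        _ ≤ _ := by linarith
    have b4 : 2 * y ≤ m * lam ^ 3 := by
      rw [hlam, div_pow, ← mul_div_assoc, le_div_iff₀ (by positivity)]
      have hL2 : 0 < 4 * L ^ 2 := by positivity
      refine le_of_mul_le_mul_left ?_ hL2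
      nlinarith
    linarith
  set Δ : ℝ := ((k + 1 : ℕ) : ℝ) ^ γ / r with hΔ
  have hΔ0 : 0 < Δ := by positivity
  have main := var_le_param h0 h1 hs hr hf k v m hv0 hm1 lam hlam0 hcond Δ hΔ0
    (fun S hS => split_lemma hr2 hs hr k S hS)
  rw [← hI, ← ha] at main
  -- the two contributions
  have c1 : a * (1 / Δ) * L ^ γ ≤ 256 * r := by
    have d1 : L ^ γ ≤ ((k + 1 : ℕ) : ℝ) ^ γ * (8 * ℓ) ^ γ := by
      rw [← Real.mul_rpow (by positivity) (by positivity)]
      refine Real.rpow_le_rpow hL0.le ?_ hγ0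
      rw [div_lt_iff₀ (by positivity)] at hk2
      push_cast; linarith
    have d2 : (8 * ℓ) ^ γ ≤ (8 * ℓ) ^ 2 := by
      rw [← Real.rpow_two]
      exact Real.rpow_le_rpow_of_exponent_le (by linarith) hγ2
    have d3 : 0 < ((k + 1 : ℕ) : ℝ) ^ γ := by positivity
    have d4 : L ^ γ ≤ ((k + 1 : ℕ) : ℝ) ^ γ * (8 * ℓ) ^ 2 :=
      d1.trans (mul_le_mul_of_nonneg_left d2 d3.le)
    calc a * (1 / Δ) * L ^ γ ≤ a * (1 / Δ) * (((k + 1 : ℕ) : ℝ) ^ γ * (8 * ℓ) ^ 2) :=
          mul_le_mul_of_nonneg_left d4 (by positivity)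
      _ = 64 * (a * ℓ ^ 2) * r := by rw [hΔ]; field_simp; ring
      _ ≤ 256 * r := by nlinarith
  have c2 : a * (8 * r * lam) * L ^ γ ≤ 768 * r := by
    have d1 : L ^ γ ≤ L ^ 2 := by
      rw [← Real.rpow_two]
      exact Real.rpow_le_rpow_of_exponent_le (by linarith) hγ2
    calc a * (8 * r * lam) * L ^ γ ≤ 1 / 4 * (8 * r * lam) * L ^ 2 :=
          mul_le_mul (mul_le_mul_of_nonneg_right ha4 (by positivity)) d1 hLγ0 (by positivity)
      _ = 768 * r := by rw [hlam]; field_simp; ring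
  calc Ex p (ind f) * (1 - Ex p (ind f)) * L ^ γ
      ≤ (a * (1 / Δ + 8 * r * lam) * I) * L ^ γ := mul_le_mul_of_nonneg_right main hLγ0
    _ = (a * (1 / Δ) * L ^ γ + a * (8 * r * lam) * L ^ γ) * I := by ring
    _ ≤ (256 * r + 768 * r) * I := mul_le_mul_of_nonneg_right (add_le_add c1 c2) hI0
    _ = 1024 * r * I := by ring

end Crest.Agent.R056
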