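import Crest.Agent.Lib.BiasedCube.Restrict

/-!
Low-degree Fourier weight of a vertex-symmetric Boolean function of an `r`-uniform hypergraph.
The coordinates `ι` carry an injective support map `s : ι → Finset V`.
-/

set_option autoImplicit false

namespace Crest.Agent.R056

open Finset Crest.Agent.Lib.BiasedCube

variable {ι : Type*} [Fintype ι] [DecidableEq ι] {V : Type*} [DecidableEq V]

/-- Coordinates meeting `A`. -/
def meet (s : ι → Finset V) (A : Finset V) : Finset ι :=
  univ.filter (fun e => ∃ v ∈ A, v ∈ s e)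

/-- Coordinates meeting `A` exactly in `u`. -/
def star (s : ι → Finset V) (A : Finset V) (u : V) : Finset ι :=
  univ.filter (fun e => u ∈ s e ∧ ∀ v ∈ A, v ∈ s e → v = u)

/-- Degree of `u` in the hypergraph `S`. -/
def deg (s : ι → Finset V) (S : Finset ι) (u : V) : ℕ := (S.filter (fun e => u ∈ s e)).card

/-- Symmetry under transpositions of vertices. -/
def SwapSymm (s : ι → Finset V) (f : (ι → Bool) → Bool) : Prop :=
  ∀ u w : V, ∃ τ : Equiv.Perm ι, (∀ e v, v ∈ s (τ e) ↔ Equiv.swap u w v ∈ s e) ∧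
    ∀ x, f (x ∘ τ) = f x

lemma swap_mem_iff {A : Finset V} {u w : V} (hu : u ∈ A) (hw : w ∈ A) (v : V) :
    Equiv.swap u w v ∈ A ↔ v ∈ A := by
  rw [Equiv.swap_apply_def]
  split_ifs with h1 h2
  · subst h1; simp [hu, hw]
  · subst h2; simp [hu, hw]
  · rfl

lemma beta_eq (p : ℝ) {s : ι → Finset V} (hs : Function.Injective s) {f : (ι → Bool) → Bool}
    (hf : SwapSymm s f) {A : Finset V} {u w : V} (hu : u ∈ A) (hw : w ∈ A) (x : ι → Bool) :
    ∑ T ∈ (star s A w).powerset.erase ∅,
        fc p (ind (fun y => f ((meet s A).piecewise y x))) T ^ 2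
      = ∑ T ∈ (star s A u).powerset.erase ∅,
        fc p (ind (fun y => f ((meet s A).piecewise y x))) T ^ 2 := by
  obtain ⟨τ, hτ, hfτ⟩ := hf u w
  have hmeet : ∀ e, τ e ∈ meet s A ↔ e ∈ meet s A := by
    intro e
    simp only [meet, Finset.mem_filter, Finset.mem_univ, true_and]
    constructor
    · rintro ⟨v, hv, hve⟩
      exact ⟨_, (swap_mem_iff hu hw v).2 hv, (hτ e v).1 hve⟩
    · rintro ⟨v, hv, hve⟩
      refine ⟨Equiv.swap u w v, (swap_mem_iff hu hw v).2 hv, (hτ e _).2 ?_⟩
      simpa using hve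
  have hfix : ∀ e, e ∉ meet s A → τ e = e := by
    intro e he
    simp only [meet, Finset.mem_filter, Finset.mem_univ, true_and, not_exists, not_and] at he
    apply hs
    ext v
    rw [hτ, Equiv.swap_apply_def]
    split_ifs with h1 h2
    · subst h1; exact iff_of_false (he _ hw) (he _ hu)
    · subst h2; exact iff_of_false (he _ hu) (he _ hw)
    · rfl
  have hstar : ∀ e, τ e ∈ star s A w ↔ e ∈ star s A u := by
    intro e
    simp only [star, Finset.mem_filter, Finset.mem_univ, true_and, hτ, Equiv.swap_apply_right]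
    refine and_congr_right fun _ => ⟨fun h v hv hve => ?_, fun h v hv hve => ?_⟩
    · have := h (Equiv.swap u w v) ((swap_mem_iff hu hw v).2 hv) (by simpa using hve)
      have h2 := congrArg (Equiv.swap u w) this
      simpa using h2
    · have := h (Equiv.swap u w v) ((swap_mem_iff hu hw v).2 hv) hve
      have h2 := congrArg (Equiv.swap u w) this
      simpa using h2
  have hF : ∀ y, ind (fun y => f ((meet s A).piecewise y x)) (y ∘ τ)
      = ind (fun y => f ((meet s A).piecewise y x)) y := by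
    intro y
    have : (meet s A).piecewise (y ∘ τ) x = ((meet s A).piecewise y x) ∘ τ := by
      funext e
      by_cases he : e ∈ meet s A
      · simp [he, (hmeet e).2 he]
      · simp [he, hfix e he]
    simp only [ind, this, hfτ]
  symm
  refine Finset.sum_equiv (Equiv.finsetCongr τ) ?_ ?_
  · intro T
    simp only [Finset.mem_erase, Finset.mem_powerset, Equiv.finsetCongr_apply, ne_eq,
      Finset.map_eq_empty]
    refine and_congr_right fun _ => ⟨fun h e he => ?_, fun h e he => ?_⟩
    · obtain ⟨e', he', rfl⟩ := Finset.mem_map.1 he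
      exact (hstar e').2 (h he')
    · exact (hstar e).1 (h (Finset.mem_map_of_mem _ he))
  · intro T _
    rw [Equiv.finsetCongr_apply, fc_map_perm p τ _ hF]

lemma beta_le {p : ℝ} (h0 : 0 < p) (h1 : p < 1) {s : ι → Finset V} (hs : Function.Injective s)
    {f : (ι → Bool) → Bool} (hf : SwapSymm s f) {A : Finset V} {u : V} (hu : u ∈ A)
    (x : ι → Bool) :
    (A.card : ℝ) * ∑ T ∈ (star s A u).powerset.erase ∅,
        fc p (ind (fun y => f ((meet s A).piecewise y x))) T ^ 2 ≤ 1 := by
  have e1 : (A.card : ℝ) * ∑ T ∈ (star s A u).powerset.erase ∅,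
        fc p (ind (fun y => f ((meet s A).piecewise y x))) T ^ 2
      = ∑ w ∈ A, ∑ T ∈ (star s A w).powerset.erase ∅,
        fc p (ind (fun y => f ((meet s A).piecewise y x))) T ^ 2 := by
    rw [Finset.sum_congr rfl (fun w hw => beta_eq p hs hf hu hw x), Finset.sum_const,
      nsmul_eq_mul]
  rw [e1, ← Finset.sum_biUnion]
  · refine le_trans (Finset.sum_le_sum_of_subset_of_nonneg (Finset.subset_univ _)
      fun S _ _ => sq_nonneg _) ?_
    rw [sum_fc_sq_ind h0 h1]
    exact Ex_ind_le_one h0.le h1.le _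
  · intro w hw w' hw' hne
    rw [Function.onFun, Finset.disjoint_left]
    intro T hT hT'
    simp only [Finset.mem_erase, Finset.mem_powerset] at hT hT'
    obtain ⟨e, he⟩ := Finset.nonempty_iff_ne_empty.2 hT.1
    have a1 := hT.2 he
    have a2 := hT'.2 he
    simp only [star, Finset.mem_filter, Finset.mem_univ, true_and] at a1 a2
    exact hne (a2.2 w hw a1.1)

/-- Sets that meet `A` only in `u`, with small positive degree at `u`. -/
def good (s : ι → Finset V) (A : Finset V) (u : V) (k : ℕ) : Finset (Finset ι) :=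
  univ.filter (fun S => (∀ e ∈ S, ∀ v ∈ A, v ∈ s e → v = u) ∧ 1 ≤ deg s S u ∧ deg s S u ≤ k)

lemma good_le {p : ℝ} (h0 : 0 < p) (h1 : p < 1) {s : ι → Finset V} (hs : Function.Injective s)
    {f : (ι → Bool) → Bool} (hf : SwapSymm s f) {A : Finset V} {u : V} (hu : u ∈ A)
    (k : ℕ) (lam : ℝ) (hlam : 0 < lam) (h : 2 * rho p ^ (2 * k) ≤ A.card * lam ^ 3) :
    ∑ S ∈ good s A u k, fc p (ind f) S ^ 2
      ≤ 4 * lam * (p * (1 - p)) * ∑ e ∈ univ.filter (fun e => u ∈ s e), Inf p f e := by
  set J := meet s A with hJ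
  set X := star s A u with hX
  set 𝓣 : Finset (Finset ι) := (X.powerset.erase ∅).filter (fun T => T.card ≤ k) with h𝓣
  have hApos : (0 : ℝ) < A.card := by exact_mod_cast Finset.card_pos.2 ⟨u, hu⟩
  have ha : 0 < p * (1 - p) := mul_pos h0 (by linarith)
  have hXJ : X ⊆ J := by
    intro e he
    simp only [hX, star, Finset.mem_filter, Finset.mem_univ, true_and] at he
    simp only [hJ, meet, Finset.mem_filter, Finset.mem_univ, true_and]
    exact ⟨u, hu, he.1⟩
  -- step 1
  have hmaps : ∀ S ∈ good s A u k, S ∩ J ∈ 𝓣 := by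
    intro S hS
    simp only [good, Finset.mem_filter, Finset.mem_univ, true_and] at hS
    obtain ⟨hS1, hS2, hS3⟩ := hS
    have hSJ : S ∩ J = S.filter (fun e => u ∈ s e) := by
      ext e
      simp only [hJ, meet, Finset.mem_inter, Finset.mem_filter, Finset.mem_univ, true_and]
      refine and_congr_right fun he => ⟨?_, fun h => ⟨u, hu, h⟩⟩
      rintro ⟨v, hv, hve⟩
      rwa [hS1 e he v hv hve] at hve
    simp only [h𝓣, Finset.mem_filter, Finset.mem_erase, Finset.mem_powerset, hSJ]
    refine ⟨⟨?_, ?_⟩, hS3⟩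
    · intro h; unfold deg at hS2; rw [h] at hS2; simp at hS2
    · intro e he
      simp only [Finset.mem_filter] at he
      simp only [hX, star, Finset.mem_filter, Finset.mem_univ, true_and]
      exact ⟨he.2, hS1 e he.1⟩
  have s1 : ∑ S ∈ good s A u k, fc p (ind f) S ^ 2
      ≤ ∑ T ∈ 𝓣, ∑ S ∈ (univ : Finset (Finset ι)).filter (fun S => S ∩ J = T),
          fc p (ind f) S ^ 2 := by
    rw [← Finset.sum_fiberwise_of_maps_to hmaps]
    refine Finset.sum_le_sum fun T _ => ?_
    refine Finset.sum_le_sum_of_subset_of_nonneg ?_ fun S _ _ => sq_nonneg _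
    exact Finset.filter_subset_filter _ (Finset.subset_univ _)
  -- step 2
  have s2 : ∑ T ∈ 𝓣, ∑ S ∈ (univ : Finset (Finset ι)).filter (fun S => S ∩ J = T),
          fc p (ind f) S ^ 2
      = Ex p (fun x => ∑ T ∈ 𝓣, fc p (ind (fun y => f (J.piecewise y x))) T ^ 2) := by
    rw [Ex_sum]
    refine Finset.sum_congr rfl fun T _ => ?_
    rw [← Ex_fc_restrict_sq h0 h1]
    rfl
  -- step 3
  have s3 : ∀ x, ∑ T ∈ 𝓣, fc p (ind (fun y => f (J.piecewise y x))) T ^ 2
      ≤ ∑ e ∈ X, 4 * lam * (p * (1 - p)) * Inf p (fun y => f (J.piecewise y x)) e := by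
    intro x
    set F : (ι → Bool) → Bool := fun y => f (J.piecewise y x) with hF
    have hb := beta_le h0 h1 hs hf hu x
    have hb' : ∑ T ∈ X.powerset.erase ∅, fc p (ind F) T ^ 2 ≤ 1 / A.card := by
      rw [le_div_iff₀ hApos, mul_comm]; exact hb
    calc ∑ T ∈ 𝓣, fc p (ind F) T ^ 2
        ≤ ∑ T ∈ 𝓣, ∑ e ∈ X, if e ∈ T then fc p (ind F) T ^ 2 else 0 := by
          refine Finset.sum_le_sum fun T hT => ?_
          simp only [h𝓣, Finset.mem_filter, Finset.mem_erase, Finset.mem_powerset] at hT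
          obtain ⟨e, he⟩ := Finset.nonempty_iff_ne_empty.2 hT.1.1
          have := Finset.single_le_sum
            (f := fun e => if e ∈ T then fc p (ind F) T ^ 2 else 0)
            (fun i _ => by split_ifs <;> positivity) (hT.1.2 he)
          simpa [he] using this
      _ = ∑ e ∈ X, ∑ T ∈ 𝓣.filter (fun T => e ∈ T), fc p (ind F) T ^ 2 := by
          rw [Finset.sum_comm]
          exact Finset.sum_congr rfl fun e _ => (Finset.sum_filter _ _).symm
      _ ≤ _ := by
          refine Finset.sum_le_sum fun e _ => ?_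
          refine core h0 h1 F e _ k (1 / A.card) lam ?_ ?_ ?_ hlam ?_
          · intro T hT
            simp only [h𝓣, Finset.mem_filter] at hT
            exact hT.1.2
          · intro T hT
            exact (Finset.mem_filter.1 hT).2
          · refine le_trans (Finset.sum_le_sum_of_subset_of_nonneg ?_ fun S _ _ => sq_nonneg _) hb'
            exact (Finset.filter_subset _ _).trans (Finset.filter_subset _ _)
          · rw [mul_one_div, div_le_iff₀ hApos, mul_comm (lam ^ 3)]; exact h
  have s4 := Ex_mono h0.le h1.le s3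
  rw [← s2, Ex_sum] at s4
  refine s1.trans (s4.trans ?_)
  rw [Finset.mul_sum]
  have s5 : ∀ e ∈ X, Ex p (fun x => 4 * lam * (p * (1 - p))
      * Inf p (fun y => f (J.piecewise y x)) e) = 4 * lam * (p * (1 - p)) * Inf p f e := by
    intro e he
    rw [Ex_const_mul, Ex_Inf_restrict p J (hXJ he)]
  rw [Finset.sum_congr rfl s5]
  refine Finset.sum_le_sum_of_subset_of_nonneg ?_ fun e _ _ => ?_
  · intro e he
    simp only [hX, star, Finset.mem_filter, Finset.mem_univ, true_and] at he ⊢
    exact he.1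
  · exact mul_nonneg (by positivity) (Inf_nonneg h0.le h1.le f e)

/-- Sets with few vertices and small positive degree at `u`. -/
def low (s : ι → Finset V) (u : V) (k v : ℕ) : Finset (Finset ι) :=
  univ.filter (fun S => 1 ≤ deg s S u ∧ deg s S u ≤ k ∧ (S.biUnion s).card ≤ v)

lemma card_residue_ge {n q m j : ℕ} (hj : j < q) (hm : q * m ≤ n) :
    m ≤ ((univ : Finset (Fin n)).filter (fun i => i.val % q = j)).card := by
  have hlt : ∀ t : Fin m, j + q * t.val < n := by
    intro t
    have : t.val + 1 ≤ m := t.2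
    have : q * (t.val + 1) ≤ q * m := Nat.mul_le_mul_left q this
    nlinarith
  have hq : 0 < q := by omega
  calc m = (univ : Finset (Fin m)).card := by simp
    _ ≤ _ := by
      refine Finset.card_le_card_of_injOn (fun t => (⟨j + q * t.val, hlt t⟩ : Fin n)) ?_ ?_
      · intro t _
        simp [Nat.mod_eq_of_lt hj]
      · intro t _ t' _ h
        simp only [Fin.mk.injEq, Nat.add_left_cancel_iff] at h
        exact Fin.ext (Nat.eq_of_mul_eq_mul_left hq h)

lemma low_le {n : ℕ} {p : ℝ} (h0 : 0 < p) (h1 : p < 1) {s : ι → Finset (Fin n)}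
    (hs : Function.Injective s) {f : (ι → Bool) → Bool} (hf : SwapSymm s f) (u : Fin n)
    (k v m : ℕ) (hv : 0 < v) (hm : 2 * v * m ≤ n) (lam : ℝ) (hlam : 0 < lam)
    (h : 2 * rho p ^ (2 * k) ≤ m * lam ^ 3) :
    ∑ S ∈ low s u k v, fc p (ind f) S ^ 2
      ≤ 8 * lam * (p * (1 - p)) * ∑ e ∈ univ.filter (fun e => u ∈ s e), Inf p f e := by
  set A : ℕ → Finset (Fin n) := fun j => insert u (univ.filter (fun i => i.val % (2 * v) = j))
    with hA
  have hgood : ∀ j ∈ Finset.range (2 * v), ∑ S ∈ good s (A j) u k, fc p (ind f) S ^ 2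
      ≤ 4 * lam * (p * (1 - p)) * ∑ e ∈ univ.filter (fun e => u ∈ s e), Inf p f e := by
    intro j hj
    refine good_le h0 h1 hs hf (Finset.mem_insert_self _ _) k lam hlam (h.trans ?_)
    refine mul_le_mul_of_nonneg_right ?_ (by positivity)
    have : m ≤ (A j).card :=
      (card_residue_ge (Finset.mem_range.1 hj) hm).trans
        (Finset.card_le_card (Finset.subset_insert _ _))
    exact_mod_cast this
  have hsum := Finset.sum_le_sum hgood
  rw [Finset.sum_const, Finset.card_range, nsmul_eq_mul] at hsum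
  have hcount : ∀ S ∈ low s u k v,
      v ≤ ((Finset.range (2 * v)).filter (fun j => S ∈ good s (A j) u k)).card := by
    intro S hS
    simp only [low, Finset.mem_filter, Finset.mem_univ, true_and] at hS
    obtain ⟨hS1, hS2, hS3⟩ := hS
    have hsub : (Finset.range (2 * v)) \ ((S.biUnion s).image (fun i => i.val % (2 * v)))
        ⊆ (Finset.range (2 * v)).filter (fun j => S ∈ good s (A j) u k) := by
      intro j hj
      simp only [Finset.mem_sdiff, Finset.mem_image, Finset.mem_biUnion, not_exists,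
        not_and] at hj
      simp only [Finset.mem_filter, good, Finset.mem_univ, true_and]
      refine ⟨hj.1, ?_, hS1, hS2⟩
      intro e he w hw hwe
      simp only [hA, Finset.mem_insert, Finset.mem_filter, Finset.mem_univ, true_and] at hw
      rcases hw with hw | hw
      · exact hw
      · exact absurd hw (hj.2 w ⟨e, he, hwe⟩)
    have h1 := Finset.card_le_card hsub
    have h2 := Finset.le_card_sdiff ((S.biUnion s).image (fun i => i.val % (2 * v)))
      (Finset.range (2 * v))
    have h3 : ((S.biUnion s).image (fun i => i.val % (2 * v))).card ≤ v :=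
      Finset.card_image_le.trans hS3
    rw [Finset.card_range] at h2
    omega
  have key : (v : ℝ) * ∑ S ∈ low s u k v, fc p (ind f) S ^ 2
      ≤ ∑ j ∈ Finset.range (2 * v), ∑ S ∈ good s (A j) u k, fc p (ind f) S ^ 2 := by
    calc (v : ℝ) * ∑ S ∈ low s u k v, fc p (ind f) S ^ 2
        ≤ ∑ S ∈ low s u k v, ∑ j ∈ Finset.range (2 * v),
            if S ∈ good s (A j) u k then fc p (ind f) S ^ 2 else 0 := by
          rw [Finset.mul_sum]
          refine Finset.sum_le_sum fun S hS => ?_
          rw [← Finset.sum_filter, Finset.sum_const, nsmul_eq_mul]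
          refine mul_le_mul_of_nonneg_right ?_ (sq_nonneg _)
          exact_mod_cast hcount S hS
      _ ≤ ∑ S : Finset ι, ∑ j ∈ Finset.range (2 * v),
            if S ∈ good s (A j) u k then fc p (ind f) S ^ 2 else 0 :=
          Finset.sum_le_sum_of_subset_of_nonneg (Finset.subset_univ _) fun S _ _ =>
            Finset.sum_nonneg fun j _ => by split_ifs <;> positivity
      _ = _ := by
          rw [Finset.sum_comm]
          refine Finset.sum_congr rfl fun j _ => ?_
          rw [Finset.sum_ite_mem]; simp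
  have hv' : (0 : ℝ) < v := by exact_mod_cast hv
  have := key.trans hsum
  push_cast at this
  refine le_of_mul_le_mul_left ?_ hv'
  linarith

lemma sum_star_Inf {n r : ℕ} (p : ℝ) {s : ι → Finset (Fin n)} (hr : ∀ e, (s e).card = r)
    (f : (ι → Bool) → Bool) :
    ∑ u : Fin n, ∑ e ∈ univ.filter (fun e => u ∈ s e), Inf p f e = r * ∑ e, Inf p f e := by
  simp_rw [Finset.sum_filter]
  rw [Finset.sum_comm, Finset.mul_sum]
  refine Finset.sum_congr rfl fun e _ => ?_
  rw [← Finset.sum_filter]
  simp [hr e]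

/-- The variance bound with free parameters. -/
theorem var_le_param {n r : ℕ} {p : ℝ} (h0 : 0 < p) (h1 : p < 1) {s : ι → Finset (Fin n)}
    (hs : Function.Injective s) (hr : ∀ e, (s e).card = r) {f : (ι → Bool) → Bool}
    (hf : SwapSymm s f) (k v m : ℕ) (hv : 0 < v) (hm : 2 * v * m ≤ n) (lam : ℝ) (hlam : 0 < lam)
    (h : 2 * rho p ^ (2 * k) ≤ m * lam ^ 3) (Δ : ℝ) (hΔ : 0 < Δ)
    (hsplit : ∀ S : Finset ι, S ≠ ∅ → Δ ≤ S.card ∨ ∃ u, S ∈ low s u k v) :
    Ex p (ind f) * (1 - Ex p (ind f))
      ≤ p * (1 - p) * (1 / Δ + 8 * r * lam) * ∑ e, Inf p f e := by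
  rw [var_eq_sum h0 h1]
  have e1 : ∀ S ∈ (univ : Finset (Finset ι)).erase ∅, fc p (ind f) S ^ 2
      ≤ 1 / Δ * ((S.card : ℝ) * fc p (ind f) S ^ 2)
        + ∑ u : Fin n, if S ∈ low s u k v then fc p (ind f) S ^ 2 else 0 := by
    intro S hS
    have hn : ∀ u ∈ (univ : Finset (Fin n)),
        0 ≤ if S ∈ low s u k v then fc p (ind f) S ^ 2 else 0 :=
      fun u _ => by split_ifs <;> positivity
    rcases hsplit S (Finset.ne_of_mem_erase hS) with hc | ⟨u, hu⟩
    · have : fc p (ind f) S ^ 2 ≤ 1 / Δ * ((S.card : ℝ) * fc p (ind f) S ^ 2) := by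
        rw [← mul_assoc]
        have : 1 ≤ 1 / Δ * (S.card : ℝ) := by
          rw [one_div, inv_mul_eq_div, one_le_div hΔ]; exact hc
        nlinarith [sq_nonneg (fc p (ind f) S)]
      have := Finset.sum_nonneg hn
      linarith
    · have := Finset.single_le_sum hn (mem_univ u)
      simp only [hu, if_true] at this
      have : 0 ≤ 1 / Δ * ((S.card : ℝ) * fc p (ind f) S ^ 2) := by positivity
      linarith
  refine (Finset.sum_le_sum e1).trans ?_
  refine le_trans (Finset.sum_le_sum_of_subset_of_nonneg (Finset.subset_univ _) fun S _ _ =>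
    add_nonneg (by positivity) (Finset.sum_nonneg fun u _ => by split_ifs <;> positivity)) ?_
  rw [Finset.sum_add_distrib, ← Finset.mul_sum, sum_card_mul_fc_sq h0 h1, Finset.sum_comm]
  have e2 : ∀ u ∈ (univ : Finset (Fin n)),
      ∑ S : Finset ι, (if S ∈ low s u k v then fc p (ind f) S ^ 2 else 0)
        ≤ 8 * lam * (p * (1 - p)) * ∑ e ∈ univ.filter (fun e => u ∈ s e), Inf p f e := by
    intro u _
    rw [Finset.sum_ite_mem, Finset.univ_inter]
    exact low_le h0 h1 hs hf u k v m hv hm lam hlam h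
  have e3 := Finset.sum_le_sum e2
  rw [← Finset.mul_sum, sum_star_Inf p hr] at e3
  nlinarith

omit [Fintype ι] [DecidableEq ι] in
/-- A hypergraph of minimum degree `δ` has many edges. -/
lemma min_deg_bound {r : ℕ} (hr1 : 1 ≤ r) {s : ι → Finset V} (hs : Function.Injective s)
    (hr : ∀ e, (s e).card = r) (S : Finset ι) (hS : S ≠ ∅) (δ : ℕ)
    (hδ : ∀ u ∈ S.biUnion s, δ ≤ deg s S u) : δ ^ r ≤ (r * S.card) ^ (r - 1) := by
  set W := S.biUnion s with hW
  have hsum : ∑ u ∈ W, deg s S u = r * S.card := by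
    unfold deg
    simp_rw [Finset.card_filter]
    rw [Finset.sum_comm]
    rw [Finset.sum_congr rfl (g := fun _ => r), Finset.sum_const, smul_eq_mul, mul_comm]
    intro e he
    rw [← Finset.card_filter, ← hr e]
    congr 1
    ext u
    simp only [Finset.mem_filter, and_iff_right_iff_imp]
    intro hu
    exact Finset.mem_biUnion.2 ⟨e, he, hu⟩
  have h1 : δ * W.card ≤ r * S.card := by
    rw [← hsum, mul_comm, ← smul_eq_mul, ← Finset.sum_const]
    exact Finset.sum_le_sum hδ
  obtain ⟨e0, he0⟩ := Finset.nonempty_iff_ne_empty.2 hS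
  obtain ⟨u, hu⟩ : (s e0).Nonempty := Finset.card_pos.1 (by rw [hr]; omega)
  have huW : u ∈ W := Finset.mem_biUnion.2 ⟨e0, he0, hu⟩
  have h2 : deg s S u ≤ W.card ^ (r - 1) := by
    refine le_trans ?_ (Nat.choose_le_pow W.card (r - 1))
    rw [← Finset.card_powersetCard]
    unfold deg
    refine Finset.card_le_card_of_injOn (fun e => (s e).erase u) ?_ ?_
    · intro e he
      simp only [Finset.coe_filter, Set.mem_ofPred_eq] at he
      simp only [Finset.mem_coe, Finset.mem_powersetCard]
      refine ⟨fun w hw => Finset.mem_biUnion.2 ⟨e, he.1, Finset.mem_of_mem_erase hw⟩, ?_⟩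
      rw [Finset.card_erase_of_mem he.2, hr]
    · intro e he e' he' h
      simp only [Finset.coe_filter, Set.mem_ofPred_eq] at he he' h
      apply hs
      rw [← Finset.insert_erase he.2, ← Finset.insert_erase he'.2, h]
  have h3 : δ ≤ W.card ^ (r - 1) := (hδ u huW).trans h2
  calc δ ^ r = δ ^ (r - 1) * δ := by rw [← pow_succ]; congr 1; omega
    _ ≤ δ ^ (r - 1) * W.card ^ (r - 1) := Nat.mul_le_mul_left _ h3
    _ = (δ * W.card) ^ (r - 1) := by rw [mul_pow]
    _ ≤ _ := Nat.pow_le_pow_left h1 _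

omit [DecidableEq ι] in
lemma split_lemma {r : ℕ} (hr2 : 2 ≤ r) {s : ι → Finset V} (hs : Function.Injective s)
    (hr : ∀ e, (s e).card = r) (k : ℕ) (S : Finset ι) (hS : S ≠ ∅) :
    ((k + 1 : ℕ) : ℝ) ^ ((r : ℝ) / ((r : ℝ) - 1)) / r ≤ S.card ∨
      ∃ u, S ∈ low s u k ((k + 1) ^ 2) := by
  by_cases hc : (k + 1) ^ r ≤ (r * S.card) ^ (r - 1)
  · left
    have hr0 : (0 : ℝ) < r := by exact_mod_cast (by omega : 0 < r)
    have hr1 : (0 : ℝ) < (r : ℝ) - 1 := by
      have : (2 : ℝ) ≤ r := by exact_mod_cast hr2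
      linarith
    rw [div_le_iff₀ hr0]
    have hcast : ((r - 1 : ℕ) : ℝ) = (r : ℝ) - 1 := by
      rw [Nat.cast_sub (by omega)]; simp
    have e1 : (((k + 1 : ℕ) : ℝ) ^ ((r : ℝ) / ((r : ℝ) - 1))) ^ (r - 1) = ((k + 1 : ℕ) : ℝ) ^ r := by
      rw [← Real.rpow_natCast, ← Real.rpow_mul (by positivity), hcast,
        div_mul_cancel₀ _ hr1.ne', Real.rpow_natCast]
    have e2 : (((k + 1 : ℕ) : ℝ) ^ ((r : ℝ) / ((r : ℝ) - 1))) ^ (r - 1)
        ≤ ((S.card : ℝ) * r) ^ (r - 1) := by
      rw [e1, mul_comm]; exact_mod_cast hc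
    exact le_of_pow_le_pow_left₀ (by omega) (by positivity) e2
  · right
    push Not at hc
    have hex : ∃ u ∈ S.biUnion s, deg s S u < k + 1 := by
      by_contra hcon
      push Not at hcon
      exact absurd (min_deg_bound (by omega) hs hr S hS (k + 1) hcon) (not_le.2 hc)
    obtain ⟨u, hu, hdeg⟩ := hex
    refine ⟨u, ?_⟩
    simp only [low, Finset.mem_filter, Finset.mem_univ, true_and]
    refine ⟨?_, by omega, ?_⟩
    · obtain ⟨e, he, hue⟩ := Finset.mem_biUnion.1 hu
      exact Finset.card_pos.2 ⟨e, Finset.mem_filter.2 ⟨he, hue⟩⟩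
    · have a1 : (S.biUnion s).card ≤ r * S.card := by
        refine Finset.card_biUnion_le.trans ?_
        rw [Finset.sum_congr rfl (fun e _ => hr e), Finset.sum_const, smul_eq_mul, mul_comm]
      have a2 : (k + 1) ^ r ≤ ((k + 1) ^ 2) ^ (r - 1) := by
        rw [← pow_mul]
        exact Nat.pow_le_pow_right (by omega) (by omega)
      have a3 : r * S.card < (k + 1) ^ 2 :=
        lt_of_pow_lt_pow_left₀ (r - 1) (by positivity) (hc.trans_le a2)
      omega

end Crest.Agent.R056
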