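import Mathlib

/-! Integration of the differential inequality `μ (1 - μ) ≤ K μ'`. -/

set_option autoImplicit false

namespace Crest.Agent.R056

theorem threshold_ode (μ I : ℝ → ℝ) (K : ℝ) (hK : 0 < K) (hc : Continuous μ)
    (hd : ∀ t, 0 < t → t < 1 → HasDerivAt μ (I t) t) (hI : ∀ t, 0 < t → t < 1 → 0 ≤ I t)
    (hv : ∀ t, 0 < t → t < 1 → μ t * (1 - μ t) ≤ K * I t)
    (ε : ℝ) (hε0 : 0 < ε) (hε : ε < 1 / 2) (p q : ℝ) (hp0 : 0 ≤ p) (hq1 : q ≤ 1) (hp : ε ≤ μ p)
    (hq : p + 4 * K * Real.log (1 / (2 * ε)) ≤ q) : 1 - ε ≤ μ q := by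
  by_contra hcon
  push Not at hcon
  have hlog : 0 < Real.log (1 / (2 * ε)) := by
    apply Real.log_pos
    rw [lt_div_iff₀ (by positivity)]; linarith
  have hpq : p ≤ q := by
    have : 0 ≤ 4 * K * Real.log (1 / (2 * ε)) := by positivity
    linarith
  have hint : ∀ t ∈ interior (Set.Icc p q), 0 < t ∧ t < 1 := by
    intro t ht
    rw [interior_Icc] at ht
    exact ⟨by linarith [ht.1], by linarith [ht.2]⟩
  have hmono : MonotoneOn μ (Set.Icc p q) := by
    refine monotoneOn_of_deriv_nonneg (convex_Icc p q) hc.continuousOn ?_ ?_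
    · intro t ht
      exact (hd t (hint t ht).1 (hint t ht).2).differentiableAt.differentiableWithinAt
    · intro t ht
      rw [(hd t (hint t ht).1 (hint t ht).2).deriv]
      exact hI t (hint t ht).1 (hint t ht).2
  have hpm : p ∈ Set.Icc p q := ⟨le_rfl, hpq⟩
  have hqm : q ∈ Set.Icc p q := ⟨hpq, le_rfl⟩
  have hrange : ∀ t ∈ Set.Icc p q, 0 < μ t ∧ 0 < 1 - μ t := by
    intro t ht
    have a1 := hmono hpm ht ht.1
    have a2 := hmono ht hqm ht.2
    constructor <;> linarith
  set g : ℝ → ℝ := fun t => Real.log (μ t) - Real.log (1 - μ t) with hg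
  have hgd : ∀ t ∈ interior (Set.Icc p q),
      HasDerivAt g (I t / μ t - (-I t) / (1 - μ t)) t := by
    intro t ht
    have h := hd t (hint t ht).1 (hint t ht).2
    have hr := hrange t (interior_subset ht)
    exact (h.log hr.1.ne').sub ((h.const_sub 1).log hr.2.ne')
  have hgc : ContinuousOn g (Set.Icc p q) := by
    refine ContinuousOn.sub (hc.continuousOn.log fun t ht => (hrange t ht).1.ne') ?_
    exact (continuousOn_const.sub hc.continuousOn).log fun t ht => (hrange t ht).2.ne'
  have hmv := (convex_Icc p q).mul_sub_le_image_sub_of_le_deriv hgc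
    (fun t ht => (hgd t ht).differentiableAt.differentiableWithinAt) (C := 1 / K)
    (by
      intro t ht
      rw [(hgd t ht).deriv]
      have hr := hrange t (interior_subset ht)
      have hv' := hv t (hint t ht).1 (hint t ht).2
      have : I t / μ t - (-I t) / (1 - μ t) = I t / (μ t * (1 - μ t)) := by
        have := hr.1.ne'
        have := hr.2.ne'
        field_simp; ring
      rw [this, div_le_div_iff₀ hK (mul_pos hr.1 hr.2)]
      linarith) p hpm q hqm hpq
  have hq' := hrange q hqm
  have hp' := hrange p hpm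
  have b1 : Real.log (μ q) < Real.log (1 - ε) := Real.log_lt_log hq'.1 hcon
  have b2 : Real.log ε ≤ Real.log (1 - μ q) := Real.log_le_log hε0 (by linarith)
  have b3 : Real.log ε ≤ Real.log (μ p) := Real.log_le_log hε0 hp
  have b4 : Real.log (1 - μ p) ≤ Real.log (1 - ε) := Real.log_le_log hp'.2 (by linarith)
  have b5 : Real.log (1 - ε) - Real.log ε ≤ 2 * Real.log (1 / (2 * ε)) := by
    rw [← Real.log_div (by linarith) hε0.ne']
    have : 2 * Real.log (1 / (2 * ε)) = Real.log ((1 / (2 * ε)) ^ 2) := by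
      rw [Real.log_pow]; norm_num
    rw [this]
    refine Real.log_le_log (div_pos (by linarith) hε0) ?_
    rw [div_pow, div_le_div_iff₀ hε0 (by positivity)]
    nlinarith [sq_nonneg (2 * ε - 1)]
  have b6 : 4 * Real.log (1 / (2 * ε)) ≤ 1 / K * (q - p) := by
    rw [one_div K, inv_mul_eq_div, le_div_iff₀ hK]
    linarith
  simp only [hg] at hmv
  linarith

end Crest.Agent.R056
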